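import Vale.Agent.P110.Bdl.B1
/-!
# P110: ultraflat Littlewood polynomials with real coefficients exist
-/

namespace Vale.Agent.Results.P110.Ultraflat

open Filter Topology

/-- The Littlewood polynomial `∑_{k<N} a_k z^k` of length `N` with signs `a`, at the point `z`. -/
noncomputable def littlewood {N : ℕ} (a : Fin N → ℤˣ) (z : ℂ) : ℂ :=
  ∑ k : Fin N, ((a k : ℤ) : ℂ) * z ^ (k : ℕ)

/-- A sequence of Littlewood polynomials of lengths `N n` is ultraflat: the lengths tend to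
infinity and `| |P_n(z)| / √(N n) - 1 |` tends to `0` uniformly on `|z| = 1`. -/
def IsUltraflat (N : ℕ → ℕ) (a : (n : ℕ) → Fin (N n) → ℤˣ) : Prop :=
  Tendsto N atTop atTop ∧ ∀ c : ℝ, 0 < c → ∃ n₀ : ℕ, ∀ n : ℕ, n₀ ≤ n →
    ∀ z : ℂ, ‖z‖ = 1 → |‖littlewood (a n) z‖ / √(N n : ℝ) - 1| ≤ c

/-- **Real ultraflat Littlewood polynomials exist.** For every `c > 0` and every large length `N`
some Littlewood polynomial of length `N` has modulus between `(1-c)√N` and `(1+c)√N` on the whole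
unit circle; and there is an ultraflat sequence with one Littlewood polynomial of each length. -/
theorem result :
    (∀ c : ℝ, 0 < c → ∃ N₀ : ℕ, ∀ N : ℕ, N₀ ≤ N → ∃ a : Fin N → ℤˣ, ∀ z : ℂ, ‖z‖ = 1 →
      (1 - c) * √(N : ℝ) ≤ ‖littlewood a z‖ ∧ ‖littlewood a z‖ ≤ (1 + c) * √(N : ℝ)) ∧
    ∃ a : (n : ℕ) → Fin n → ℤˣ, IsUltraflat (fun n => n) a := by
  have hflat : ∀ c : ℝ, 0 < c → ∃ N₀ : ℕ, ∀ N : ℕ, N₀ ≤ N → ∃ a : Fin N → ℤˣ,
      ∀ z : ℂ, ‖z‖ = 1 →
      (1 - c) * √(N : ℝ) ≤ ‖littlewood a z‖ ∧ ‖littlewood a z‖ ≤ (1 + c) * √(N : ℝ) :=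
    Vale.Agent.P110.ultraflat
  refine ⟨hflat, ?_⟩
  -- choose for every length the flattest Littlewood polynomial
  let f : (n : ℕ) → (Fin n → ℤˣ) → Metric.sphere (0 : ℂ) 1 → ℝ :=
    fun n a z => |‖littlewood a z‖ / √(n : ℝ) - 1|
  have hne : Nonempty (Metric.sphere (0 : ℂ) 1) := ⟨⟨1, by simp⟩⟩
  have hbdd : ∀ (n : ℕ) (a : Fin n → ℤˣ), BddAbove (Set.range (f n a)) := by
    intro n a
    apply IsCompact.bddAbove
    apply isCompact_range
    have h1 : Continuous fun z : ℂ => littlewood a z := by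
      unfold littlewood
      fun_prop
    have h2 : Continuous fun z : Metric.sphere (0 : ℂ) 1 => littlewood a (z : ℂ) :=
      h1.comp continuous_subtype_val
    exact ((h2.norm.div_const _).sub continuous_const).abs
  have hmin : ∀ n : ℕ, ∃ a : Fin n → ℤˣ, ∀ b : Fin n → ℤˣ, (⨆ z, f n a z) ≤ ⨆ z, f n b z :=
    fun n => Finite.exists_min fun b : Fin n → ℤˣ => ⨆ z, f n b z
  choose a ha using hmin
  refine ⟨a, tendsto_id, ?_⟩
  intro c hc
  obtain ⟨N₀, h⟩ := hflat c hc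
  refine ⟨N₀ + 1, fun n hn z hz => ?_⟩
  obtain ⟨b, hb⟩ := h n (by omega)
  have hs : 0 < √(n : ℝ) := Real.sqrt_pos.2 (by exact_mod_cast (by omega : 0 < n))
  have h1 : (⨆ z, f n b z) ≤ c := by
    apply ciSup_le
    rintro ⟨w, hw⟩
    have hw' : ‖w‖ = 1 := by simpa using hw
    obtain ⟨h3, h4⟩ := hb w hw'
    change |‖littlewood b w‖ / √(n : ℝ) - 1| ≤ c
    rw [abs_le]
    constructor
    · have : (1 - c) ≤ ‖littlewood b w‖ / √(n : ℝ) := by
        rw [le_div_iff₀ hs]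
        exact h3
      linarith
    · have : ‖littlewood b w‖ / √(n : ℝ) ≤ 1 + c := by
        rw [div_le_iff₀ hs]
        exact h4
      linarith
  exact (le_ciSup (hbdd n (a n)) ⟨z, by simpa using hz⟩).trans ((ha n b).trans h1)

end Vale.Agent.Results.P110.Ultraflat
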